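import Vale.Agent.Lib.P074.Third.Defs
import Vale.Agent.Lib.P074.LB.Stab

/-!
# P074: the interpolation inequality `GNStatement`

For convex `R`-Lipschitz potentials `φ, ψ` with almost everywhere subgradient selections `T, S`
on a convex body `K`,
`∫ ‖T - S‖² dρ ≤ C (∫ (φ - ψ - c)² dρ)^{1/3}` (`ρ` the uniform probability measure on `K`).
-/

namespace Vale.Agent.Lib.P074

open MeasureTheory ENNReal

namespace GN

variable {d : ℕ}

/-- Pointwise bound of the directional derivative difference by a first difference of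
`φ - ψ` and two second differences. -/
lemma abs_inner_le {φ ψ : E d → ℝ} {x p q : E d}
    (hp : ∀ z, φ x + inner ℝ p (z - x) ≤ φ z) (hq : ∀ z, ψ x + inner ℝ q (z - x) ≤ ψ z)
    (h : E d) :
    |inner ℝ (p - q) h| ≤
      |(φ (x + h) - ψ (x + h)) - (φ x - ψ x)| + sd φ h x + sd ψ h x := by
  have a1 := hp (x + h)
  have a2 := hp (x - h)
  have b1 := hq (x + h)
  have b2 := hq (x - h)
  have e1 : x + h - x = h := by abel
  have e2 : x - h - x = -h := by abel
  rw [e1] at a1 b1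
  rw [e2, inner_neg_right] at a2 b2
  rw [inner_sub_left, abs_le]
  unfold sd
  have k1 := le_abs_self ((φ (x + h) - ψ (x + h)) - (φ x - ψ x))
  have k2 := neg_abs_le ((φ (x + h) - ψ (x + h)) - (φ x - ψ x))
  constructor <;> linarith

/-- The squared version, with the Lipschitz bound used to linearize the second differences. -/
lemma sq_inner_le {φ ψ : E d → ℝ} {R : ℝ}
    (hφ : ConvexOn ℝ Set.univ φ) (hψ : ConvexOn ℝ Set.univ ψ)
    (hLφ : ∀ x y, |φ x - φ y| ≤ R * ‖x - y‖) (hLψ : ∀ x y, |ψ x - ψ y| ≤ R * ‖x - y‖)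
    {x p q : E d}
    (hp : ∀ z, φ x + inner ℝ p (z - x) ≤ φ z) (hq : ∀ z, ψ x + inner ℝ q (z - x) ≤ ψ z)
    (h : E d) (c : ℝ) :
    (inner ℝ (p - q) h) ^ 2 ≤
      6 * (φ (x + h) - ψ (x + h) - c) ^ 2 + 6 * (φ x - ψ x - c) ^ 2
        + 6 * R * ‖h‖ * (sd φ h x + sd ψ h x) := by
  have h0 := abs_inner_le hp hq h
  have s1 : 0 ≤ sd φ h x := sd_nonneg hφ h x
  have s2 : 0 ≤ sd ψ h x := sd_nonneg hψ h x
  have u1 := sd_le_of_lipschitz hLφ h x
  have u2 := sd_le_of_lipschitz hLψ h x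
  have hb : (φ (x + h) - ψ (x + h)) - (φ x - ψ x) =
      (φ (x + h) - ψ (x + h) - c) - (φ x - ψ x - c) := by ring
  rw [hb] at h0
  generalize inner ℝ (p - q) h = a at h0 ⊢
  generalize φ (x + h) - ψ (x + h) - c = u at h0 ⊢
  generalize φ x - ψ x - c = v at h0 ⊢
  generalize sd φ h x = s at h0 s1 u1 ⊢
  generalize sd ψ h x = s' at h0 s2 u2 ⊢
  have hn : 0 ≤ ‖h‖ := norm_nonneg h
  generalize ‖h‖ = n at u1 u2 hn ⊢
  have h1 : a ^ 2 ≤ (|u - v| + s + s') ^ 2 := by
    rw [← sq_abs a]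
    exact pow_le_pow_left₀ (abs_nonneg a) h0 2
  have h2 : (|u - v| + s + s') ^ 2 ≤ 3 * ((u - v) ^ 2 + s ^ 2 + s' ^ 2) := by
    have := sq_abs (u - v)
    nlinarith [sq_nonneg (|u - v| - s), sq_nonneg (|u - v| - s'), sq_nonneg (s - s')]
  have h3 : s ^ 2 ≤ 2 * R * n * s := by
    rw [sq]; exact mul_le_mul_of_nonneg_right u1 s1
  have h4 : s' ^ 2 ≤ 2 * R * n * s' := by
    rw [sq]; exact mul_le_mul_of_nonneg_right u2 s2
  have h5 : (u - v) ^ 2 ≤ 2 * u ^ 2 + 2 * v ^ 2 := by nlinarith [sq_nonneg (u + v)]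
  nlinarith

/-- The crude bound from the Lipschitz constants. -/
lemma sq_inner_le_crude {R : ℝ} {p q : E d} (hp : ‖p‖ ≤ R) (hq : ‖q‖ ≤ R) (h : E d) :
    (inner ℝ (p - q) h) ^ 2 ≤ 4 * R ^ 2 * ‖h‖ ^ 2 := by
  have h1 : |inner ℝ (p - q) h| ≤ ‖p - q‖ * ‖h‖ := abs_real_inner_le_norm _ _
  have h2 : ‖p - q‖ ≤ 2 * R := by
    calc ‖p - q‖ ≤ ‖p‖ + ‖q‖ := norm_sub_le _ _
      _ ≤ 2 * R := by linarith
  have h3 : |inner ℝ (p - q) h| ≤ 2 * R * ‖h‖ :=
    h1.trans (mul_le_mul_of_nonneg_right h2 (norm_nonneg h))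
  have h4 : (inner ℝ (p - q) h) ^ 2 ≤ (2 * R * ‖h‖) ^ 2 := by
    rw [← sq_abs (inner ℝ (p - q) h)]
    exact pow_le_pow_left₀ (abs_nonneg _) h3 2
  calc (inner ℝ (p - q) h) ^ 2 ≤ (2 * R * ‖h‖) ^ 2 := h4
    _ = 4 * R ^ 2 * ‖h‖ ^ 2 := by ring

/-- The part of a convex body `K ⊇ closedBall c r0` that leaves `K` under the translation by `w`
has volume at most `d ‖w‖ / r0` times the volume of `K`. -/
lemma volume_bad_le {K : Set (E d)} (hK : IsCompact K) (hconv : Convex ℝ K) {c : E d} {r0 : ℝ}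
    (hr0 : 0 < r0) (hball : Metric.closedBall c r0 ⊆ K) {w : E d} (hw : ‖w‖ ≤ r0) :
    (volume (K \ (fun y => y + w) ⁻¹' K)).toReal ≤ d * (‖w‖ / r0) * (volume K).toReal := by
  have hVfin : volume K ≠ ⊤ := hK.measure_lt_top.ne
  set V := (volume K).toReal with hV
  have hV0 : 0 ≤ V := ENNReal.toReal_nonneg
  by_cases hw0 : w = 0
  · subst hw0
    simp
  have hwpos : 0 < ‖w‖ := norm_pos_iff.mpr hw0
  set t := ‖w‖ / r0 with ht
  have ht0 : 0 < t := div_pos hwpos hr0
  have ht1 : t ≤ 1 := by rw [ht, div_le_one hr0]; exact hw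
  set K' := AffineMap.homothety c (1 - t) '' K with hK'
  set K₂ := (fun y => y + w) ⁻¹' K with hK₂
  have hK'c : IsCompact K' := hK.image (AffineMap.homothety_continuous c (1 - t))
  have hK'm : MeasurableSet K' := hK'c.isClosed.measurableSet
  have hcK : c ∈ K := hball (Metric.mem_closedBall_self hr0.le)
  have hsub1 : K' ⊆ K := by
    rintro _ ⟨x, hx, rfl⟩
    rw [AffineMap.homothety_apply]
    have : (1 - t) • (x -ᵥ c) +ᵥ c = (1 - t) • x + t • c := by
      simp only [vsub_eq_sub, vadd_eq_add, smul_sub, sub_smul, one_smul]; abel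
    rw [this]
    exact hconv hx hcK (by linarith) ht0.le (by ring)
  have hsub2 : K' ⊆ K₂ := by
    rintro _ ⟨x, hx, rfl⟩
    show AffineMap.homothety c (1 - t) x + w ∈ K
    rw [AffineMap.homothety_apply]
    have hp : c + t⁻¹ • w ∈ K := by
      apply hball
      rw [Metric.mem_closedBall, dist_eq_norm, add_sub_cancel_left, norm_smul, Real.norm_eq_abs,
        abs_of_pos (inv_pos.mpr ht0), ht, inv_div, div_mul_cancel₀ _ hwpos.ne']
    have : ((1 - t) • (x -ᵥ c) +ᵥ c) + w = (1 - t) • x + t • (c + t⁻¹ • w) := by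
      simp only [vsub_eq_sub, vadd_eq_add, smul_sub, sub_smul, one_smul, smul_add, smul_smul]
      rw [mul_inv_cancel₀ ht0.ne', one_smul]; abel
    rw [this]
    exact hconv hx hp (by linarith) ht0.le (by ring)
  have hvol' : (volume K').toReal = (1 - t) ^ d * V := by
    rw [hK', Measure.addHaar_image_homothety, finrank_euclideanSpace_fin, ENNReal.toReal_mul,
      ENNReal.toReal_ofReal (abs_nonneg _), abs_of_nonneg (pow_nonneg (by linarith) d)]
  have hK'fin : volume K' ≠ ⊤ := hK'c.measure_lt_top.ne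
  have h1 : volume (K \ K₂) ≤ volume (K \ K') := measure_mono (Set.sdiff_subset_sdiff_right hsub2)
  have h2 : volume (K \ K') = volume K - volume K' :=
    measure_sdiff hsub1 hK'm.nullMeasurableSet hK'fin
  have hfin2 : volume (K \ K') ≠ ⊤ := measure_ne_top_of_subset Set.sdiff_subset hVfin
  have h3 : (volume (K \ K')).toReal = V - (1 - t) ^ d * V := by
    rw [h2, ENNReal.toReal_sub_of_le (measure_mono hsub1) hVfin, hvol']
  have hbern : 1 - d * t ≤ (1 - t) ^ d := by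
    have := one_add_mul_le_pow (show (-2 : ℝ) ≤ -t by linarith) d
    have e : (1 : ℝ) + -t = 1 - t := by ring
    rw [e] at this
    linarith
  calc (volume (K \ K₂)).toReal ≤ (volume (K \ K')).toReal := ENNReal.toReal_mono hfin2 h1
    _ = V - (1 - t) ^ d * V := h3
    _ ≤ d * t * V := by nlinarith

/-- Integrability on `K` of the squared directional component of `T - S`. -/
lemma integrableOn_sq_inner {K : Set (E d)} (hK : IsCompact K) {T S : E d → E d} {R : ℝ}
    (hT : Measurable T) (hS : Measurable S)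
    (hbT : ∀ᵐ x ∂(volume.restrict K), ‖T x‖ ≤ R)
    (hbS : ∀ᵐ x ∂(volume.restrict K), ‖S x‖ ≤ R) (w : E d) :
    IntegrableOn (fun x => (inner ℝ (T x - S x) w) ^ 2) K volume := by
  have hVfin : volume K ≠ ⊤ := hK.measure_lt_top.ne
  have : IsFiniteMeasure (volume.restrict K) := isFiniteMeasure_restrict.mpr hVfin
  have hm : Measurable fun x => (inner ℝ (T x - S x) w) ^ 2 :=
    ((hT.sub hS).inner measurable_const).pow_const 2
  refine Integrable.of_bound hm.aestronglyMeasurable (4 * R ^ 2 * ‖w‖ ^ 2) ?_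
  filter_upwards [hbT, hbS] with x h1 h2
  rw [Real.norm_eq_abs, abs_of_nonneg (sq_nonneg _)]
  exact sq_inner_le_crude h1 h2 w

/-- The directional estimate: for `‖w‖ ≤ r0`,
`∫_K ⟨T - S, w⟩² ≤ 12 ∫_K (φ - ψ - c)² + (24 (d + 1) + 4 d) R² ‖w‖³ vol(K) / r0`. -/
lemma integral_dir_le {K : Set (E d)} (hK : IsCompact K) (hconv : Convex ℝ K) {c0 : E d}
    {r0 : ℝ} (hr0 : 0 < r0) (hball : Metric.closedBall c0 r0 ⊆ K) {R : ℝ} (hR : 0 ≤ R)
    {φ ψ : E d → ℝ} {T S : E d → E d}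
    (hφ : ConvexOn ℝ Set.univ φ) (hψ : ConvexOn ℝ Set.univ ψ)
    (hLφ : ∀ x y, |φ x - φ y| ≤ R * ‖x - y‖) (hLψ : ∀ x y, |ψ x - ψ y| ≤ R * ‖x - y‖)
    (hTφ : ∀ᵐ x ∂(volume.restrict K), ∀ z, φ x + inner ℝ (T x) (z - x) ≤ φ z)
    (hSψ : ∀ᵐ x ∂(volume.restrict K), ∀ z, ψ x + inner ℝ (S x) (z - x) ≤ ψ z)
    (c : ℝ) {w : E d} (hw : ‖w‖ ≤ r0) :
    ∫ x in K, (inner ℝ (T x - S x) w) ^ 2 ≤
      12 * (∫ x in K, (φ x - ψ x - c) ^ 2) +
        (24 * (d + 1) + 4 * d) * R ^ 2 * ‖w‖ ^ 3 / r0 * (volume K).toReal := by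
  have hKm : MeasurableSet K := hK.isClosed.measurableSet
  have hVfin : volume K ≠ ⊤ := hK.measure_lt_top.ne
  set V := (volume K).toReal with hV
  have hV0 : 0 ≤ V := ENNReal.toReal_nonneg
  have hcφ := lipschitz_continuous hLφ
  have hcψ := lipschitz_continuous hLψ
  set F : E d → ℝ := fun x => (φ x - ψ x - c) ^ 2 with hF
  have hFc : Continuous F := by rw [hF]; fun_prop
  have hF0 : ∀ x, 0 ≤ F x := fun x => sq_nonneg _
  set K₂ := (fun y => y + w) ⁻¹' K with hK₂
  have hK₂m : MeasurableSet K₂ := (measurable_id.add_const w) hKm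
  have hbadm : MeasurableSet (K \ K₂) := hKm.diff hK₂m
  have hbadfin : volume (K \ K₂) ≠ ⊤ := measure_ne_top_of_subset Set.sdiff_subset hVfin
  have hn : 0 ≤ ‖w‖ := norm_nonneg w
  -- integrability of the pieces
  have i1 : Integrable (K.indicator F) volume :=
    (hFc.continuousOn.integrableOn_compact hK).integrable_indicator hKm
  have i1' : Integrable (fun x => K.indicator F (x + w)) volume := i1.comp_add_right w
  have i2 : IntegrableOn (fun x => F x) K volume := hFc.continuousOn.integrableOn_compact hK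
  have i3 : IntegrableOn (fun x => sd φ w x) K volume :=
    (sd_continuous hcφ w).continuousOn.integrableOn_compact hK
  have i4 : IntegrableOn (fun x => sd ψ w x) K volume :=
    (sd_continuous hcψ w).continuousOn.integrableOn_compact hK
  have i5' : Integrable ((K \ K₂).indicator (fun _ => (1 : ℝ))) volume :=
    (integrableOn_const hbadfin).integrable_indicator hbadm
  have i5 : IntegrableOn (fun x => (K \ K₂).indicator (fun _ => (1 : ℝ)) x) K volume :=
    i5'.integrableOn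
  have j1 : IntegrableOn (fun x => 6 * K.indicator F (x + w)) K volume :=
    i1'.integrableOn.const_mul 6
  have j2 : IntegrableOn (fun x => 6 * F x) K volume := i2.const_mul 6
  have j34 : IntegrableOn (fun x => sd φ w x + sd ψ w x) K volume := i3.add i4
  have j3 : IntegrableOn (fun x => 6 * R * ‖w‖ * (sd φ w x + sd ψ w x)) K volume :=
    j34.const_mul _
  have j4 : IntegrableOn
      (fun x => 4 * R ^ 2 * ‖w‖ ^ 2 * (K \ K₂).indicator (fun _ => (1 : ℝ)) x) K volume :=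
    i5.const_mul _
  have j12 : IntegrableOn (fun x => 6 * K.indicator F (x + w) + 6 * F x) K volume := j1.add j2
  have j123 : IntegrableOn (fun x => 6 * K.indicator F (x + w) + 6 * F x
      + 6 * R * ‖w‖ * (sd φ w x + sd ψ w x)) K volume := j12.add j3
  have jB : IntegrableOn (fun x => 6 * K.indicator F (x + w) + 6 * F x
      + 6 * R * ‖w‖ * (sd φ w x + sd ψ w x)
      + 4 * R ^ 2 * ‖w‖ ^ 2 * (K \ K₂).indicator (fun _ => (1 : ℝ)) x) K volume := j123.add j4
  -- pointwise bound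
  have hpt : ∀ᵐ x ∂(volume.restrict K), (inner ℝ (T x - S x) w) ^ 2 ≤
      6 * K.indicator F (x + w) + 6 * F x + 6 * R * ‖w‖ * (sd φ w x + sd ψ w x)
        + 4 * R ^ 2 * ‖w‖ ^ 2 * (K \ K₂).indicator (fun _ => (1 : ℝ)) x := by
    filter_upwards [hTφ, hSψ, ae_restrict_mem hKm] with x hx1 hx2 hxK
    have s1 : 0 ≤ sd φ w x := sd_nonneg hφ w x
    have s2 : 0 ≤ sd ψ w x := sd_nonneg hψ w x
    have hs : 0 ≤ 6 * R * ‖w‖ * (sd φ w x + sd ψ w x) := by positivity
    by_cases hxw : x + w ∈ K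
    · have e1 : K.indicator F (x + w) = F (x + w) := Set.indicator_of_mem hxw _
      have hind : 0 ≤ (K \ K₂).indicator (fun _ => (1 : ℝ)) x :=
        Set.indicator_nonneg (fun _ _ => zero_le_one) x
      have hind' : 0 ≤ 4 * R ^ 2 * ‖w‖ ^ 2 * (K \ K₂).indicator (fun _ => (1 : ℝ)) x := by
        positivity
      have := sq_inner_le hφ hψ hLφ hLψ hx1 hx2 w c
      rw [e1]
      simp only [hF]
      linarith
    · have e1 : K.indicator F (x + w) = 0 := Set.indicator_of_notMem hxw _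
      have hmem : x ∈ K \ K₂ := ⟨hxK, hxw⟩
      have e2 : (K \ K₂).indicator (fun _ => (1 : ℝ)) x = 1 := Set.indicator_of_mem hmem _
      have := sq_inner_le_crude (norm_le_of_subgradient hR hLφ hx1)
        (norm_le_of_subgradient hR hLψ hx2) w
      have hFx := hF0 x
      rw [e1, e2]
      linarith
  have hmono : ∫ x in K, (inner ℝ (T x - S x) w) ^ 2 ≤
      ∫ x in K, (6 * K.indicator F (x + w) + 6 * F x + 6 * R * ‖w‖ * (sd φ w x + sd ψ w x)
        + 4 * R ^ 2 * ‖w‖ ^ 2 * (K \ K₂).indicator (fun _ => (1 : ℝ)) x) :=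
    integral_mono_of_nonneg (Filter.Eventually.of_forall fun x => sq_nonneg _) jB hpt
  have hsplit : ∫ x in K, (6 * K.indicator F (x + w) + 6 * F x
      + 6 * R * ‖w‖ * (sd φ w x + sd ψ w x)
      + 4 * R ^ 2 * ‖w‖ ^ 2 * (K \ K₂).indicator (fun _ => (1 : ℝ)) x) =
      6 * (∫ x in K, K.indicator F (x + w)) + 6 * (∫ x in K, F x)
        + 6 * R * ‖w‖ * ((∫ x in K, sd φ w x) + (∫ x in K, sd ψ w x))
        + 4 * R ^ 2 * ‖w‖ ^ 2 * (∫ x in K, (K \ K₂).indicator (fun _ => (1 : ℝ)) x) := by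
    have c1 : ∫ x in K, 6 * K.indicator F (x + w) = 6 * ∫ x in K, K.indicator F (x + w) :=
      integral_const_mul _ _
    have c2 : ∫ x in K, 6 * F x = 6 * ∫ x in K, F x := integral_const_mul _ _
    have c3 : ∫ x in K, 6 * R * ‖w‖ * (sd φ w x + sd ψ w x) =
        6 * R * ‖w‖ * ∫ x in K, (sd φ w x + sd ψ w x) := integral_const_mul _ _
    have c4 : ∫ x in K, 4 * R ^ 2 * ‖w‖ ^ 2 * (K \ K₂).indicator (fun _ => (1 : ℝ)) x =
        4 * R ^ 2 * ‖w‖ ^ 2 * ∫ x in K, (K \ K₂).indicator (fun _ => (1 : ℝ)) x :=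
      integral_const_mul _ _
    rw [integral_add j123 j4, integral_add j12 j3, integral_add j1 j2, c1, c2, c3, c4,
      integral_add i3 i4]
  -- the pieces
  have p1 : ∫ x in K, K.indicator F (x + w) ≤ ∫ x in K, F x := by
    calc ∫ x in K, K.indicator F (x + w) ≤ ∫ x, K.indicator F (x + w) :=
          setIntegral_le_integral i1' (Filter.Eventually.of_forall fun x =>
            Set.indicator_nonneg (fun y _ => hF0 y) _)
      _ = ∫ x, K.indicator F x := integral_add_right_eq_self (K.indicator F) w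
      _ = ∫ x in K, F x := integral_indicator hKm
  have p2 := integral_sd_le hK hconv hr0 hball hR hLφ w
  have p3 := integral_sd_le hK hconv hr0 hball hR hLψ w
  have p4 : ∫ x in K, (K \ K₂).indicator (fun _ => (1 : ℝ)) x ≤ d * (‖w‖ / r0) * V := by
    calc ∫ x in K, (K \ K₂).indicator (fun _ => (1 : ℝ)) x
        ≤ ∫ x, (K \ K₂).indicator (fun _ => (1 : ℝ)) x :=
          setIntegral_le_integral i5' (Filter.Eventually.of_forall fun x =>
            Set.indicator_nonneg (fun _ _ => zero_le_one) _)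
      _ = (volume (K \ K₂)).toReal := by
          rw [integral_indicator hbadm, setIntegral_const, smul_eq_mul, mul_one]; rfl
      _ ≤ d * (‖w‖ / r0) * V := volume_bad_le hK hconv hr0 hball hw
  refine hmono.trans ?_
  rw [hsplit]
  generalize ∫ x in K, F x = I at p1 ⊢
  generalize ∫ x in K, K.indicator F (x + w) = I' at p1 ⊢
  generalize ∫ x in K, sd φ w x = J1 at p2 ⊢
  generalize ∫ x in K, sd ψ w x = J2 at p3 ⊢
  generalize ∫ x in K, (K \ K₂).indicator (fun _ => (1 : ℝ)) x = J3 at p4 ⊢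
  have q1 : 6 * I' ≤ 6 * I := by linarith
  have q2 : 6 * R * ‖w‖ * (J1 + J2) ≤
      6 * R * ‖w‖ * (2 * (2 * (d + 1) * R * ‖w‖ ^ 2 / r0 * V)) := by
    apply mul_le_mul_of_nonneg_left _ (by positivity)
    linarith
  have q3 : 4 * R ^ 2 * ‖w‖ ^ 2 * J3 ≤ 4 * R ^ 2 * ‖w‖ ^ 2 * (d * (‖w‖ / r0) * V) :=
    mul_le_mul_of_nonneg_left p4 (by positivity)
  have e : 12 * I + (24 * (d + 1) + 4 * d) * R ^ 2 * ‖w‖ ^ 3 / r0 * V =
      6 * I + 6 * I
        + 6 * R * ‖w‖ * (2 * (2 * (d + 1) * R * ‖w‖ ^ 2 / r0 * V))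
        + 4 * R ^ 2 * ‖w‖ ^ 2 * (d * (‖w‖ / r0) * V) := by
    field_simp
    ring
  rw [e]
  linarith

/-- Transfer of almost everywhere statements from `unif K` to the restricted Lebesgue measure. -/
lemma ae_restrict_of_ae_unif {K : Set (E d)} (hVfin : volume K ≠ ⊤) {p : E d → Prop}
    (h : ∀ᵐ x ∂(unif K), p x) : ∀ᵐ x ∂(volume.restrict K), p x := by
  rw [ae_iff] at h ⊢
  unfold unif at h
  rw [Measure.smul_apply, smul_eq_mul] at h
  rcases mul_eq_zero.mp h with h | h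
  · exact absurd (ENNReal.inv_eq_zero.mp h) hVfin
  · exact h

/-- Optimization in `t`: from `t² x ≤ a A + b t³` for `0 < t ≤ r0` and `x ≤ m` we get
`x ≤ (a + b + m / r0) A^{1/3}`. -/
lemma opt_third {x A a b m r0 : ℝ} (hA : 0 ≤ A) (ha : 0 ≤ a) (hb : 0 ≤ b) (hm : 0 ≤ m)
    (hr0 : 0 < r0) (hxm : x ≤ m)
    (h : ∀ t : ℝ, 0 < t → t ≤ r0 → t ^ 2 * x ≤ a * A + b * t ^ 3) :
    x ≤ (a + b + m / r0) * A ^ (1 / 3 : ℝ) := by
  set s := A ^ (1 / 3 : ℝ) with hs
  have hs0 : 0 ≤ s := Real.rpow_nonneg hA _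
  have hs3 : s ^ 3 = A := by
    rw [hs, ← Real.rpow_natCast, ← Real.rpow_mul hA]
    norm_num
  rcases hA.eq_or_lt with hA0 | hApos
  · -- A = 0
    have hs00 : s = 0 := by
      rw [hs, ← hA0]
      exact Real.zero_rpow (by norm_num)
    rw [hs00, mul_zero]
    by_contra hx
    push Not at hx
    set t := min r0 (x / (2 * (b + 1))) with ht
    have ht0 : 0 < t := lt_min hr0 (by positivity)
    have h1 := h t ht0 (min_le_left _ _)
    rw [← hA0, mul_zero, zero_add] at h1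
    have h2 : x ≤ b * t := by
      have : t ^ 2 * x ≤ t ^ 2 * (b * t) := by
        calc t ^ 2 * x ≤ b * t ^ 3 := h1
          _ = t ^ 2 * (b * t) := by ring
      exact le_of_mul_le_mul_left this (by positivity)
    have h3 : b * t ≤ b * (x / (2 * (b + 1))) :=
      mul_le_mul_of_nonneg_left (min_le_right _ _) hb
    have h4 : b * (x / (2 * (b + 1))) < x := by
      rw [← mul_div_assoc, div_lt_iff₀ (by positivity)]
      nlinarith
    linarith
  · have hspos : 0 < s := Real.rpow_pos_of_pos hApos _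
    have hmr : 0 ≤ m / r0 := div_nonneg hm hr0.le
    by_cases hsr : s ≤ r0
    · have h1 := h s hspos hsr
      rw [← hs3] at h1
      have h2 : s ^ 2 * x ≤ s ^ 2 * ((a + b) * s) := by
        calc s ^ 2 * x ≤ a * s ^ 3 + b * s ^ 3 := h1
          _ = s ^ 2 * ((a + b) * s) := by ring
      have h3 : x ≤ (a + b) * s := le_of_mul_le_mul_left h2 (by positivity)
      nlinarith
    · push Not at hsr
      have h1 : m ≤ m / r0 * s := by
        calc m = m / r0 * r0 := by field_simp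
          _ ≤ m / r0 * s := mul_le_mul_of_nonneg_left hsr.le hmr
      have h2 : 0 ≤ (a + b) * s := by positivity
      nlinarith

end GN

open GN in
theorem gn_statement (d : ℕ) : GNStatement d := by
  intro K hK hconv hint R hR
  obtain ⟨c0, hc0⟩ := hint
  obtain ⟨ε, hε, hεb⟩ := Metric.isOpen_iff.mp isOpen_interior c0 hc0
  set r0 := ε / 2 with hr0def
  have hr0 : 0 < r0 := by positivity
  have hball : Metric.closedBall c0 r0 ⊆ K :=
    (Metric.closedBall_subset_ball (by rw [hr0def]; linarith)).trans (hεb.trans interior_subset)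
  have hKm : MeasurableSet K := hK.isClosed.measurableSet
  have hVfin : volume K ≠ ⊤ := hK.measure_lt_top.ne
  have hVpos : 0 < (volume K).toReal :=
    ENNReal.toReal_pos (volume_pos_of_interior ⟨c0, hc0⟩).ne' hVfin
  set V := (volume K).toReal with hV
  set c₁ : ℝ := 24 * (d + 1) + 4 * d with hc₁
  have hc₁0 : 0 ≤ c₁ := by rw [hc₁]; positivity
  set b : ℝ := d * (c₁ * R ^ 2 / r0) with hb
  have hb0 : 0 ≤ b := by rw [hb]; positivity
  refine ⟨12 * d + b + 4 * R ^ 2 / r0, by positivity, ?_⟩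
  intro φ ψ T S hφ hψ hLφ hLψ hT hS hTφ hSψ c
  have : IsProbabilityMeasure (unif K) := unif_isProbabilityMeasure hK ⟨c0, hc0⟩
  have hTφ' : ∀ᵐ x ∂(volume.restrict K), ∀ z, φ x + inner ℝ (T x) (z - x) ≤ φ z :=
    ae_restrict_of_ae_unif hVfin hTφ
  have hSψ' : ∀ᵐ x ∂(volume.restrict K), ∀ z, ψ x + inner ℝ (S x) (z - x) ≤ ψ z :=
    ae_restrict_of_ae_unif hVfin hSψ
  have hbT : ∀ᵐ x ∂(volume.restrict K), ‖T x‖ ≤ R := by
    filter_upwards [hTφ'] with x hx using norm_le_of_subgradient hR hLφ hx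
  have hbS : ∀ᵐ x ∂(volume.restrict K), ‖S x‖ ≤ R := by
    filter_upwards [hSψ'] with x hx using norm_le_of_subgradient hR hLψ hx
  -- crude bound
  have hcrude : ∫ x, ‖T x - S x‖ ^ 2 ∂(unif K) ≤ 4 * R ^ 2 := by
    have hbd : ∀ᵐ x ∂(unif K), ‖T x - S x‖ ^ 2 ≤ 4 * R ^ 2 := by
      filter_upwards [hTφ, hSψ] with x hx1 hx2
      have h1 := norm_le_of_subgradient hR hLφ hx1
      have h2 := norm_le_of_subgradient hR hLψ hx2
      have h3 : ‖T x - S x‖ ≤ 2 * R := by
        calc ‖T x - S x‖ ≤ ‖T x‖ + ‖S x‖ := norm_sub_le _ _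
          _ ≤ 2 * R := by linarith
      calc ‖T x - S x‖ ^ 2 ≤ (2 * R) ^ 2 := pow_le_pow_left₀ (norm_nonneg _) h3 2
        _ = 4 * R ^ 2 := by ring
    calc ∫ x, ‖T x - S x‖ ^ 2 ∂(unif K) ≤ ∫ _, 4 * R ^ 2 ∂(unif K) :=
          integral_mono_of_nonneg (Filter.Eventually.of_forall fun x => sq_nonneg _)
            (integrable_const _) hbd
      _ = 4 * R ^ 2 := by simp
  have hA0 : 0 ≤ ∫ x, (φ x - ψ x - c) ^ 2 ∂(unif K) := integral_nonneg fun x => sq_nonneg _
  -- the key estimate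
  have hkey : ∀ t : ℝ, 0 < t → t ≤ r0 →
      t ^ 2 * ∫ x, ‖T x - S x‖ ^ 2 ∂(unif K) ≤
        12 * d * ∫ x, (φ x - ψ x - c) ^ 2 ∂(unif K) + b * t ^ 3 := by
    intro t ht htr
    have hdir : ∀ i : Fin d, ∫ x in K, (inner ℝ (T x - S x) (EuclideanSpace.single i t)) ^ 2 ≤
        12 * (∫ x in K, (φ x - ψ x - c) ^ 2) + c₁ * R ^ 2 * t ^ 3 / r0 * V := by
      intro i
      have hw : ‖(EuclideanSpace.single i t : E d)‖ ≤ r0 := by
        rw [PiLp.norm_single, Real.norm_eq_abs, abs_of_pos ht]; exact htr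
      have := integral_dir_le hK hconv hr0 hball hR hφ hψ hLφ hLψ hTφ' hSψ' c hw
      rw [PiLp.norm_single, Real.norm_eq_abs, abs_of_pos ht] at this
      exact this
    have hsum : ∀ x, ∑ i : Fin d, (inner ℝ (T x - S x) (EuclideanSpace.single i t)) ^ 2 =
        t ^ 2 * ‖T x - S x‖ ^ 2 := by
      intro x
      rw [EuclideanSpace.real_norm_sq_eq, Finset.mul_sum]
      refine Finset.sum_congr rfl fun i _ => ?_
      rw [EuclideanSpace.inner_single_right]
      simp only [conj_trivial]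
      ring
    have hint : ∫ x in K, t ^ 2 * ‖T x - S x‖ ^ 2 =
        ∑ i : Fin d, ∫ x in K, (inner ℝ (T x - S x) (EuclideanSpace.single i t)) ^ 2 := by
      rw [← integral_finsetSum _ (fun i _ => integrableOn_sq_inner hK hT hS hbT hbS _)]
      refine integral_congr_ae (Filter.Eventually.of_forall fun x => ?_)
      exact (hsum x).symm
    have h1 : t ^ 2 * ∫ x in K, ‖T x - S x‖ ^ 2 ≤
        d * (12 * (∫ x in K, (φ x - ψ x - c) ^ 2) + c₁ * R ^ 2 * t ^ 3 / r0 * V) := by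
      rw [← integral_const_mul, hint]
      calc ∑ i : Fin d, ∫ x in K, (inner ℝ (T x - S x) (EuclideanSpace.single i t)) ^ 2
          ≤ ∑ _i : Fin d,
              (12 * (∫ x in K, (φ x - ψ x - c) ^ 2) + c₁ * R ^ 2 * t ^ 3 / r0 * V) :=
            Finset.sum_le_sum fun i _ => hdir i
        _ = d * (12 * (∫ x in K, (φ x - ψ x - c) ^ 2) + c₁ * R ^ 2 * t ^ 3 / r0 * V) := by
            rw [Finset.sum_const, Finset.card_univ, Fintype.card_fin, nsmul_eq_mul]
    rw [integral_unif, integral_unif]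
    generalize ∫ x in K, ‖T x - S x‖ ^ 2 = I1 at h1 ⊢
    generalize ∫ x in K, (φ x - ψ x - c) ^ 2 = I2 at h1 ⊢
    have e1 : t ^ 2 * (V⁻¹ * I1) = V⁻¹ * (t ^ 2 * I1) := by ring
    have e2 : 12 * d * (V⁻¹ * I2) + b * t ^ 3 =
        V⁻¹ * (d * (12 * I2 + c₁ * R ^ 2 * t ^ 3 / r0 * V)) := by
      rw [hb]
      field_simp
    rw [e1, e2]
    exact mul_le_mul_of_nonneg_left h1 (inv_nonneg.mpr hVpos.le)
  have hfin := opt_third hA0 (by positivity : (0 : ℝ) ≤ 12 * d) hb0
    (by positivity : (0 : ℝ) ≤ 4 * R ^ 2) hr0 hcrude hkey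
  exact hfin

end Vale.Agent.Lib.P074
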